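import Vale.Agent.P088.Bdl.B12

/-!
# P088, exterior determination, part 1: the localised equations, the match near the boundary and
closedness of the set of good points
-/

open Bundle Manifold MeasureTheory Set Filter Topology
open scoped ContDiff

noncomputable section

set_option linter.all false

namespace Vale.Agent.P088.EYM

universe u

section Defs

variable {n N : ℕ} [NeZero n] {M : Type u} [TopologicalSpace M]
  [ChartedSpace (EuclideanHalfSpace n) M] [IsManifold (𝓡∂ n) ∞ M]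

variable (n) in
/-- The part over `W` of the domain of coordinates of the chart at `p`. -/
def tgW (W : Set M) (p : M) : Set (E n) := tg n p ∩ (xc n p).symm ⁻¹' W

theorem tgW_sub (W : Set M) (p : M) : tgW n W p ⊆ tg n p := inter_subset_left

theorem tgW_rel (hrel : ∀ p : M, RelOpen (tg n p)) {W : Set M} (hW : IsOpen W) (p : M) :
    RelOpen (tgW n W p) := by
  obtain ⟨Oq, hOq, hOqe⟩ := hrel p
  obtain ⟨Ou, hOu, hOue⟩ := (continuousOn_iff'.1 (continuousOn_extChartAt_symm (I := 𝓡∂ n) p))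
    W hW
  refine ⟨Ou ∩ Oq, hOu.inter hOq, ?_⟩
  have hOqe' : (extChartAt (𝓡∂ n) p).target = Oq ∩ Hs n := hOqe
  have h1 : tgW n W p = (extChartAt (𝓡∂ n) p).symm ⁻¹' W ∩ (extChartAt (𝓡∂ n) p).target :=
    inter_comm _ _
  rw [h1, hOue, hOqe', inter_assoc]

variable [MeasurableSpace M]

/-- The Einstein and Yang-Mills equations on `W`. -/
def EYMw (κ α β : ℝ) (P : One n N M) (W : Set M) : Prop :=
  ∀ p : M, EYMeq κ α β (P.loc p) (tgW n W p)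

theorem EYMw_of {κ α β : ℝ} {P : One n N M} (h : EYMm κ α β P.g P.A) (W : Set M) :
    EYMw κ α β P W := fun p =>
  ⟨fun x hx j k => (h p).ein x hx.1 j k, fun x hx k => (h p).ym x hx.1 k⟩

theorem EYMw_mono {κ α β : ℝ} {P : One n N M} {W W' : Set M} (h : EYMw κ α β P W)
    (hW : W' ⊆ W) : EYMw κ α β P W' := fun p =>
  ⟨fun x hx j k => (h p).ein x ⟨hx.1, hW hx.2⟩ j k, fun x hx k => (h p).ym x ⟨hx.1, hW hx.2⟩ k⟩

end Defs

section Man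

variable {n N : ℕ} [NeZero n] {M : Type u} [TopologicalSpace M]
  [ChartedSpace (EuclideanHalfSpace n) M] [IsManifold (𝓡∂ n) ∞ M]
  [T2Space M] [CompactSpace M] [ConnectedSpace M] [MeasurableSpace M] [BorelSpace M]

/-- The model near an interior point of `W`. -/
theorem wClosed_model (hBM : BModel_statement) (hHarm : CHarm_statement.{u})
    (hU : CUniq_statement.{u}) (hLoc : CLoc_statement.{u}) (hN : 0 < N) (P : One n N M)
    {κ α β : ℝ} {W₀ : Set M} (hW₀ : IsOpen W₀) (hP : EYMw κ α β P W₀)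
    (hb : ((𝓡∂ n).boundary M).Nonempty) (j0 : Fin N)
    {x : M} (hx : x ∈ Mi n M) (hxW : x ∈ W₀) (s : Fin N → M → Fib N) (t : Fin n → M → Fib N)
    (hs : ∀ j, ∃ f, P.Harm f (s j)) (ht : ∀ a, ∃ f, P.Harm f (t a))
    (hu : IsUnit (frm n x s (xc n x x)))
    (hd : (Jac (Xco j0 (frm n x s) (fun a => lu (𝓡∂ n) x (t a))) (xc n x x)).det ≠ 0)
    (hpos : 0 < Xco j0 (frm n x s) (fun a => lu (𝓡∂ n) x (t a)) (xc n x x) 0) :
    ∃ (Y : E n → E n) (W : Model n N) (r₀ : ℝ), 0 < r₀ ∧ ∀ r, 0 < r → r ≤ r₀ →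
      ∃ D₁ ⊆ tg n x, RelOpen D₁ ∧ xc n x x ∈ D₁ ∧
        IsPull (P.loc x) W.toLD D₁
          (HB (Xco j0 (frm n x s) (fun a => lu (𝓡∂ n) x (t a)) (xc n x x)) r)
          (Xco j0 (frm n x s) (fun a => lu (𝓡∂ n) x (t a))) Y (frm n x s) ∧
        IsModel κ α β j0 W (HB (Xco j0 (frm n x s) (fun a => lu (𝓡∂ n) x (t a)) (xc n x x)) r) ∧
        ∀ y ∈ D₁, ∀ a, lu (𝓡∂ n) x (t a) y =
          frm n x s y (W.c a (Xco j0 (frm n x s) (fun a => lu (𝓡∂ n) x (t a)) y)) := by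
  have hss : ∀ j, SmS n (s j) := fun j => (hs j).choose_spec.smooth
  have hsub := tgW_sub (n := n) W₀ x
  have g1 : ∀ v, Sol (P.loc x) (tgW n W₀ x) (fun y => frm n x s y v) := by
    intro v
    obtain ⟨f, hf⟩ := cClosed_harm_sum hU hN P hb s hs v
    have h1 := hHarm n N M P f _ hf x
    have h2 : (fun y => frm n x s y v) = lu (𝓡∂ n) x (∑ j, v j • s j) :=
      funext fun y => cClosed_frm_apply x s y v
    rw [h2]
    exact cERel_solMono h1 hsub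
  have g2 : ∀ a, Sol (P.loc x) (tgW n W₀ x) (lu (𝓡∂ n) x (t a)) := by
    intro a
    obtain ⟨f, hf⟩ := ht a
    exact cERel_solMono (hHarm n N M P f _ hf x) hsub
  have g3 : xc n x x ∈ tgW n W₀ x := ⟨(xc n x).map_source (mem_extChartAt_source x), by
    rw [mem_preimage, extChartAt_to_inv]; exact hxW⟩
  obtain ⟨Y, W, r₀, hr₀, h⟩ := hBM n N (P.loc x) (tgW n W₀ x) κ α β j0
    (tgW_rel (hLoc n N M).1 hW₀ x) (cERel_okMono ((hLoc n N M).2.1 P x) hsub) (hP x)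
    (frm n x s) (fun a => lu (𝓡∂ n) x (t a)) ((cClosed_frm_smooth hLoc x s hss).mono hsub) g1 g2
    (xc n x x) g3 hu hd (Or.inl ⟨cClosed_pos hLoc hx, hpos⟩)
  refine ⟨Y, W, r₀, hr₀, fun r hr hrr => ?_⟩
  obtain ⟨D₁, hD, hD'⟩ := h r hr hrr
  exact ⟨D₁, hD.trans hsub, hD'⟩

/-- One model near a boundary point in `W₀`. -/
theorem wSetup_one (hB : BModel_statement) (hH : CHarm_statement.{u})
    (hU : CUniq_statement.{u}) (hL : CLoc_statement.{u})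
    (P : One n N M) (Γ : Set M) (κ α β : ℝ) (hbd : ((𝓡∂ n).boundary M).Nonempty) (j0 : Fin N)
    (q : M) (z : E n) (r : ℝ) (s : Fin N → M → Fib N) (t : Fin n → M → Fib N) (hz : z 0 = 0)
    (hr : 0 < r) (hsub : HB z r ⊆ tg n q) (hΓ : ∀ y ∈ HB z r, y 0 = 0 → (xc n q).symm y ∈ Γ)
    (hs : ∀ j, ∃ f, P.Harm f (s j)) (ht : ∀ a, ∃ f, P.Harm f (t a))
    (hvs : ∀ y ∈ HB z r, y 0 = 0 → ∀ j, s j ((xc n q).symm y) = EuclideanSpace.single j 1)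
    (hvt : ∀ y ∈ HB z r, y 0 = 0 → ∀ a,
      t a ((xc n q).symm y) = EuclideanSpace.single j0 (y a : ℂ))
    (hpos : 0 < (pd 0 (lu (𝓡∂ n) q (t 0)) z j0).re) {W₀ : Set M} (hW₀ : IsOpen W₀)
    (hE : EYMw κ α β P W₀) (hzW : (xc n q).symm z ∈ W₀) :
    ∃ (W : Model n N) (X Y : E n → E n) (S : E n → EndF N) (r₀ : ℝ), 0 < r₀ ∧
      ∀ r, 0 < r → r ≤ r₀ → ∃ D : Set (E n), BdM P Γ q z r κ α β j0 W D X Y S s t := by
  obtain ⟨hRel, hOk, -, hSm⟩ := hL n N M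
  have hD : RelOpen (tgW n W₀ q) := tgW_rel hRel hW₀ q
  have hDs : tgW n W₀ q ⊆ tg n q := tgW_sub W₀ q
  have hlok : (P.loc q).Ok (tgW n W₀ q) := cERel_okMono (hOk P q) hDs
  have hsS : ∀ j, ContDiffOn ℝ ∞ (lu (𝓡∂ n) q (s j)) (tgW n W₀ q) := fun j => by
    obtain ⟨f, hf⟩ := hs j
    exact (hSm (s j) hf.smooth q).mono hDs
  have hS : ContDiffOn ℝ ∞ (frm n q s) (tgW n W₀ q) := cSetup_frm_smooth hsS
  have hSv : ∀ v : Fib N, Sol (P.loc q) (tgW n W₀ q) (fun x => frm n q s x v) := by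
    intro v
    obtain ⟨g, hg⟩ := cSetup_harm_sum P (hU n N M P hbd).2.1 hs v j0 Finset.univ
    have h1 := hH n N M P g _ hg q
    have h2 : lu (𝓡∂ n) q (∑ j, v j • s j) = fun x => frm n q s x v := by
      funext x
      rw [cSetup_frm_apply]
      unfold lu
      rw [Finset.sum_apply]
      rfl
    rw [h2] at h1
    exact cERel_solMono h1 hDs
  have hTs : ∀ a, Sol (P.loc q) (tgW n W₀ q) (lu (𝓡∂ n) q (t a)) := fun a => by
    obtain ⟨f, hf⟩ := ht a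
    exact cERel_solMono (hH n N M P f _ hf q) hDs
  -- shrink the half ball
  obtain ⟨r, hr, hsub, hΓ, hvs, hvt⟩ : ∃ r > 0, HB z r ⊆ tgW n W₀ q ∧
      (∀ y ∈ HB z r, y 0 = 0 → (xc n q).symm y ∈ Γ) ∧
      (∀ y ∈ HB z r, y 0 = 0 → ∀ j, s j ((xc n q).symm y) = EuclideanSpace.single j 1) ∧
      (∀ y ∈ HB z r, y 0 = 0 → ∀ a,
        t a ((xc n q).symm y) = EuclideanSpace.single j0 (y a : ℂ)) := by
    have hz1 : z ∈ tgW n W₀ q := ⟨hsub (cSetup_mem_HB hz hr), hzW⟩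
    obtain ⟨O, hO, hDO⟩ := hD
    have hzO : z ∈ O := by
      rw [hDO] at hz1
      exact hz1.1
    obtain ⟨ε, hε, hεO⟩ := Metric.isOpen_iff.1 hO z hzO
    have hm1 : HB z (min r ε) ⊆ HB z r :=
      inter_subset_inter_left _ (Metric.ball_subset_ball (min_le_left _ _))
    refine ⟨min r ε, lt_min hr hε, ?_, fun y hy => hΓ y (hm1 hy), fun y hy => hvs y (hm1 hy),
      fun y hy => hvt y (hm1 hy)⟩
    rw [hDO]
    exact inter_subset_inter_left _ ((Metric.ball_subset_ball (min_le_right _ _)).trans hεO)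
  have hzm := cSetup_mem_HB hz hr
  have hS1 : ∀ y ∈ HB z r, y 0 = 0 → frm n q s y = 1 := fun y hy h0 =>
    cSetup_frm_one q s y (hvs y hy h0)
  obtain ⟨hX, hdet, h00⟩ := cSetup_local (j0 := j0) (T := fun a => lu (𝓡∂ n) q (t a)) hD hS
    (fun a => (hTs a).1) hr hz hsub hS1 (fun y hy h0 a => hvt y hy h0 a) hpos
  set X : E n → E n := Xco j0 (frm n q s) (fun a => lu (𝓡∂ n) q (t a)) with hXdef
  have hXz : X z = z := hX z hzm hz
  obtain ⟨Y, W, r₁, hr₁, hmod⟩ := hB n N (P.loc q) (tgW n W₀ q) κ α β j0 hD hlok (hE q) (frm n q s)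
    (fun a => lu (𝓡∂ n) q (t a)) hS hSv hTs z (hsub hzm)
    (by rw [hS1 z hzm hz]; exact isUnit_one) hdet
    (Or.inr ⟨hz, h00, r, hr, fun x hx h0 => by
      show X x 0 = 0
      rw [hX x hx h0, h0]⟩)
  rw [← hXdef, hXz] at hmod
  obtain ⟨D1, hD1D, hD1r, hzD1, hpull1, -, -⟩ := hmod r₁ hr₁ le_rfl
  obtain ⟨O, hO, hDO⟩ := hD1r
  have hzO : z ∈ O := by
    have : z ∈ O ∩ Hs n := by rw [← hDO]; exact hzD1
    exact this.1
  obtain ⟨ε, hε, hεO⟩ := Metric.isOpen_iff.1 hO z hzO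
  have hεD : HB z ε ⊆ D1 := by
    rw [hDO]
    exact inter_subset_inter_left _ hεO
  have hYflat : ∀ y, y ∈ HB z ε → y ∈ HB z r → y 0 = 0 → Y y = y := by
    intro y hy hy' h0
    have h1 := hpull1.diffeo.inv1 y (hεD hy)
    rw [hX y hy' h0] at h1
    exact h1
  have hYz : Y z = z := hYflat z (cSetup_mem_HB hz hε) hzm hz
  have hYc : ContinuousWithinAt Y (HB z r₁) z :=
    hpull1.diffeo.smY.continuousOn z (cSetup_mem_HB hz hr₁)
  have hev : ∀ᶠ y in 𝓝[HB z r₁] z, Y y ∈ Metric.ball z r := by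
    have h1 : Metric.ball z r ∈ 𝓝 (Y z) := by
      rw [hYz]
      exact Metric.ball_mem_nhds z hr
    exact hYc.eventually h1
  obtain ⟨δ, hδ, hδY⟩ := Metric.mem_nhdsWithin_iff.1 hev
  refine ⟨W, X, Y, frm n q s, min (min r r₁) (min ε δ), by (clear * - hr hr₁ hε hδ; positivity), ?_⟩
  intro ρ hρ hρle
  have hρr : ρ ≤ r := hρle.trans ((min_le_left _ _).trans (min_le_left _ _))
  have hρ1 : ρ ≤ r₁ := hρle.trans ((min_le_left _ _).trans (min_le_right _ _))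
  have hρε : ρ ≤ ε := hρle.trans ((min_le_right _ _).trans (min_le_left _ _))
  have hρδ : ρ ≤ δ := hρle.trans ((min_le_right _ _).trans (min_le_right _ _))
  obtain ⟨D, hDD, hDr, hzD, hpull, hmodel, hcoord⟩ := hmod ρ hρ hρ1
  have hmono : ∀ {a b : ℝ}, a ≤ b → HB z a ⊆ HB z b := fun hab =>
    inter_subset_inter_left _ (Metric.ball_subset_ball hab)
  refine ⟨D, ?_⟩
  refine
    { rel := hDr
      sub := hDD.trans hDs
      z0 := hz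
      rpos := hρ
      pull := hpull
      model := hmodel
      bd := ?_
      bdD := ?_
      frame := fun x _ v => cSetup_frm_apply q s x v
      coord := hcoord }
  · intro y hy h0
    have hyr := hmono hρr hy
    have hyY : Y y = y := hYflat y (hmono hρε hy) hyr h0
    refine ⟨?_, hX y hyr h0, hyY, hS1 y hyr h0, hΓ y hyr h0⟩
    have h1 := hpull.diffeo.mapsY hy
    rw [hyY] at h1
    exact h1
  · intro x hx h0
    have hXx : X x ∈ HB z ρ := hpull.diffeo.mapsX hx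
    have hYX : Y (X x) = x := hpull.diffeo.inv1 x hx
    have hxb : x ∈ Metric.ball z r := by
      have h1 : X x ∈ Metric.ball z δ ∩ HB z r₁ :=
        ⟨Metric.ball_subset_ball hρδ hXx.1, hmono hρ1 hXx⟩
      have h2 : Y (X x) ∈ Metric.ball z r := hδY h1
      rw [hYX] at h2
      exact h2
    have hxr : x ∈ HB z r := ⟨hxb, hDr.subset hx⟩
    rw [hX x hxr h0] at hXx
    exact hXx

/-- Both models near the boundary point; the point is in `W₁ ∩ W₂`. -/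
theorem wSetup (hC : CStart_statement.{u}) (hB : BModel_statement) (hH : CHarm_statement.{u})
    (hU : CUniq_statement.{u}) (hL : CLoc_statement.{u})
    (P Q : One n N M) (Γ : Set M) (κ₁ κ₂ α β : ℝ) (hn : 2 ≤ n) (hN : 0 < N) (hΓ : RelBd n Γ)
    (hSD : SameD P Q Γ) {G₁ G₂ : Set M} (hW₁ : IsOpen G₁) (hW₂ : IsOpen G₂)
    (hE₁ : EYMw κ₁ α β P G₁) (hE₂ : EYMw κ₂ α β Q G₂) (hne : (Γ ∩ (G₁ ∩ G₂)).Nonempty) :
    ∃ (j0 : Fin N) (q : M) (z : E n) (r₀ : ℝ) (s : Fin N → (M → Fib N) × (M → Fib N))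
      (t : Fin n → (M → Fib N) × (M → Fib N)) (W₁ W₂ : Model n N) (X₁ Y₁ X₂ Y₂ : E n → E n)
      (S₁ S₂ : E n → EndF N), 0 < r₀ ∧ (∀ j, s j ∈ PP P Q Γ) ∧ (∀ a, t a ∈ PP P Q Γ) ∧
      (z ∈ tg n q ∧ (xc n q).symm z ∈ Γ ∩ (G₁ ∩ G₂)) ∧
      ∀ r, 0 < r → r ≤ r₀ → ∃ D₁ D₂ : Set (E n),
        BdM P Γ q z r κ₁ α β j0 W₁ D₁ X₁ Y₁ S₁ (fun j => (s j).1) (fun a => (t a).1) ∧
        BdM Q Γ q z r κ₂ α β j0 W₂ D₂ X₂ Y₂ S₂ (fun j => (s j).2) (fun a => (t a).2) := by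
  -- the smaller patch
  have hΓ' : RelBd n (Γ ∩ (G₁ ∩ G₂)) := by
    obtain ⟨O, hO, hΓO⟩ := hΓ
    refine ⟨O ∩ (G₁ ∩ G₂), hO.inter (hW₁.inter hW₂), ?_⟩
    rw [hΓO]
    exact inter_right_comm _ _ _
  have hdat : ∀ f : M → Fib N, IsBdryData (𝓡∂ n) (Γ ∩ (G₁ ∩ G₂)) f → IsBdryData (𝓡∂ n) Γ f :=
    fun f hf => ⟨hf.1, hf.2.trans inter_subset_left⟩
  have hPP : PP P Q (Γ ∩ (G₁ ∩ G₂)) ⊆ PP P Q Γ := by
    rintro u ⟨f, hf, h⟩
    exact ⟨f, hdat f hf, h⟩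
  have hSD' : SameD P Q (Γ ∩ (G₁ ∩ G₂)) := fun f h hf hh => hSD f h (hdat f hf) (hdat h hh)
  obtain ⟨j0, q, z, r, s, t, hz, hr, hsub, hsym', hs', ht', hval, hp₁, hp₂⟩ :=
    hC n N M P Q (Γ ∩ (G₁ ∩ G₂)) hn hN hΓ' hne hSD'
  have hs : ∀ j, s j ∈ PP P Q Γ := fun j => hPP (hs' j)
  have ht : ∀ a, t a ∈ PP P Q Γ := fun a => hPP (ht' a)
  have hzHB := cSetup_mem_HB hz hr
  have hzΓ := hsym' z hzHB hz
  have hzW₁ : (xc n q).symm z ∈ G₁ := hzΓ.2.1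
  have hzW₂ : (xc n q).symm z ∈ G₂ := hzΓ.2.2
  have hsym : ∀ y ∈ HB z r, y 0 = 0 → (xc n q).symm y ∈ Γ := fun y hy h0 => (hsym' y hy h0).1
  have hbd : ((𝓡∂ n).boundary M).Nonempty := by
    exact ⟨_, (by
      obtain ⟨O, -, hΓO⟩ := hΓ
      have h1 := hzΓ.1
      rw [hΓO] at h1
      exact h1.2 : (xc n q).symm z ∈ (𝓡∂ n).boundary M)⟩
  obtain ⟨W₁, X₁, Y₁, S₁, r₁, hr₁, h₁⟩ := wSetup_one hB hH hU hL P Γ κ₁ α β hbd j0 q z r
    (fun j => (s j).1) (fun a => (t a).1) hz hr hsub hsym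
    (fun j => by obtain ⟨f, -, h, -⟩ := hs j; exact ⟨f, h⟩)
    (fun a => by obtain ⟨f, -, h, -⟩ := ht a; exact ⟨f, h⟩)
    (fun y hy h0 j => ((hval y hy h0).1 j).1) (fun y hy h0 a => ((hval y hy h0).2 a).1) hp₁ hW₁ hE₁ hzW₁
  obtain ⟨W₂, X₂, Y₂, S₂, r₂, hr₂, h₂⟩ := wSetup_one hB hH hU hL Q Γ κ₂ α β hbd j0 q z r
    (fun j => (s j).2) (fun a => (t a).2) hz hr hsub hsym
    (fun j => by obtain ⟨f, -, -, h⟩ := hs j; exact ⟨f, h⟩)
    (fun a => by obtain ⟨f, -, -, h⟩ := ht a; exact ⟨f, h⟩)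
    (fun y hy h0 j => ((hval y hy h0).1 j).2) (fun y hy h0 a => ((hval y hy h0).2 a).2) hp₂ hW₂ hE₂ hzW₂
  refine ⟨j0, q, z, min r₁ r₂, s, t, W₁, W₂, X₁, Y₁, X₂, Y₂, S₁, S₂, lt_min hr₁ hr₂, hs, ht,
    ⟨hsub hzHB, hzΓ⟩, ?_⟩
  intro ρ hρ hle
  obtain ⟨D₁, hD₁⟩ := h₁ ρ hρ (hle.trans (min_le_left _ _))
  obtain ⟨D₂, hD₂⟩ := h₂ ρ hρ (hle.trans (min_le_right _ _))
  exact ⟨D₁, D₂, hD₁, hD₂⟩

end Man

/-- Good points are closed in the interior of `W₀`, if `P` satisfies the equations everywhere. -/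
theorem wClosed (hLim : CLim_statement.{u}) (hCoord : CCoord_statement.{u})
    (hModEq : CModEq_statement.{u}) (hBM : BModel_statement) (hRig : BRigInt_statement)
    (hLin : LinInt_statement) (hBSol : BSol_statement) (hMatch : CMatch_statement.{u})
    (hHarm : CHarm_statement.{u}) (hU : CUniq_statement.{u}) (hLoc : CLoc_statement.{u})
    {n N : ℕ} [NeZero n] {M : Type u} [TopologicalSpace M]
    [ChartedSpace (EuclideanHalfSpace n) M] [IsManifold (𝓡∂ n) ∞ M]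
    [T2Space M] [CompactSpace M] [ConnectedSpace M] [MeasurableSpace M] [BorelSpace M]
    (P Q : One n N M) (Γ : Set M) (κ α β : ℝ) (hn : 3 ≤ n) (hN : 0 < N) (hΓ : RelBd n Γ)
    (hΓ' : Γ.Nonempty) (hS : SameD P Q Γ) {W₀ : Set M} (hW₀ : IsOpen W₀)
    (hP : EYMw κ α β P univ) (hQ : EYMw κ α β Q W₀) (x₀ : M) (hx₀ : x₀ ∈ Mi n M)
    (hx₀W : x₀ ∈ W₀) (hcl : x₀ ∈ closure (Gd P Q Γ)) : x₀ ∈ Gd P Q Γ := by
  have hb := cClosed_bdry hΓ hΓ'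
  obtain ⟨x₀', V₀, x, O, φ, V, hx₀', hV₀, hk, hx, hφ, hV, hlim⟩ :=
    hLim n N M P Q Γ hn hN hΓ hΓ' hS x₀ hx₀ hcl
  obtain ⟨j0, s, t, hs, ht, hu1, hu2, hd1, hd2, hpos, heq⟩ :=
    hCoord n N M P Q Γ x₀ x₀' V₀ x O φ V hn hN hΓ hΓ' hS hx₀ hx₀' hV₀ hk hx hφ hV hlim
  have hpos' := hpos
  rw [heq] at hpos'
  have hs1 : ∀ j, ∃ f, P.Harm f (s j).1 := fun j => by
    obtain ⟨f, _, h1, _⟩ := hs j; exact ⟨f, h1⟩
  have hs2 : ∀ j, ∃ f, Q.Harm f (s j).2 := fun j => by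
    obtain ⟨f, _, _, h1⟩ := hs j; exact ⟨f, h1⟩
  have ht1 : ∀ j, ∃ f, P.Harm f (t j).1 := fun j => by
    obtain ⟨f, _, h1, _⟩ := ht j; exact ⟨f, h1⟩
  have ht2 : ∀ j, ∃ f, Q.Harm f (t j).2 := fun j => by
    obtain ⟨f, _, _, h1⟩ := ht j; exact ⟨f, h1⟩
  obtain ⟨Y₁, W₁, r₁, hr₁, h₁⟩ := wClosed_model hBM hHarm hU hLoc hN P isOpen_univ hP hb j0 hx₀' (mem_univ _)
    (fun j => (s j).1) (fun a => (t a).1) hs1 ht1 hu1 hd1 hpos
  obtain ⟨Y₂, W₂, r₂, hr₂, h₂⟩ := wClosed_model hBM hHarm hU hLoc hN Q hW₀ hQ hb j0 hx₀ hx₀W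
    (fun j => (s j).2) (fun a => (t a).2) hs2 ht2 hu2 hd2 hpos'
  rw [← heq] at h₂
  set ζ := Xco j0 (frm n x₀' fun j => (s j).1) (fun a => lu (𝓡∂ n) x₀' (t a).1)
    (xc n x₀' x₀') with hζ
  obtain ⟨r, hr, hra, hrb, hrc⟩ : ∃ r, 0 < r ∧ r ≤ r₁ ∧ r ≤ r₂ ∧ r ≤ ζ 0 :=
    ⟨min (min r₁ r₂) (ζ 0), lt_min (lt_min hr₁ hr₂) hpos,
      (min_le_left _ _).trans (min_le_left _ _), (min_le_left _ _).trans (min_le_right _ _),
      min_le_right _ _⟩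
  obtain ⟨D₁, hD₁s, hD₁, hz₁, hpull₁, hmod₁, hc₁⟩ := h₁ r hr hra
  obtain ⟨D₂, hD₂s, hD₂, hz₂, hpull₂, hmod₂, hc₂⟩ := h₂ r hr hrb
  obtain ⟨hHB, hHBpos⟩ := cClosed_HB (n := n) hrc
  have hHBo : RelOpen (HB ζ r) := cClosed_relOpen_HB ζ r
  have hHBopen : IsOpen (HB ζ r) := by rw [hHB]; exact Metric.isOpen_ball
  have hHBpre : IsPreconnected (HB ζ r) := by
    rw [hHB]; exact (convex_ball ζ r).isPreconnected
  -- a large index
  have ev1 : ∀ᶠ k in atTop, x k ∈ (xc n x₀).source ∧ xc n x₀ (x k) ∈ D₂ := by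
    have e1 : ∀ᶠ k in atTop, x k ∈ (xc n x₀).source :=
      hx.eventually ((isOpen_extChartAt_source x₀).mem_nhds (mem_extChartAt_source x₀))
    have e2 : Tendsto (fun k => xc n x₀ (x k)) atTop (𝓝 (xc n x₀ x₀)) :=
      (continuousAt_extChartAt x₀).tendsto.comp hx
    obtain ⟨O₂, hO₂, rfl⟩ := hD₂
    have e3 := e2.eventually (hO₂.mem_nhds hz₂.1)
    filter_upwards [e1, e3] with k h1 h3
    refine ⟨h1, h3, ?_⟩
    exact ((hLoc n N M).1 x₀).subset ((xc n x₀).map_source h1)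
  have ev2 : ∀ᶠ k in atTop, φ k (x k) ∈ (xc n x₀').source ∧ xc n x₀' (φ k (x k)) ∈ D₁ := by
    have e1 : ∀ᶠ k in atTop, φ k (x k) ∈ (xc n x₀').source :=
      hφ.eventually ((isOpen_extChartAt_source x₀').mem_nhds (mem_extChartAt_source x₀'))
    have e2 : Tendsto (fun k => xc n x₀' (φ k (x k))) atTop (𝓝 (xc n x₀' x₀')) :=
      (continuousAt_extChartAt x₀').tendsto.comp hφ
    obtain ⟨O₂, hO₂, rfl⟩ := hD₁
    have e3 := e2.eventually (hO₂.mem_nhds hz₁.1)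
    filter_upwards [e1, e3] with k h1 h3
    refine ⟨h1, h3, ?_⟩
    exact ((hLoc n N M).1 x₀').subset ((xc n x₀').map_source h1)
  obtain ⟨k, ⟨hk1, hk2⟩, hk3, hk4⟩ := (ev1.and ev2).exists
  obtain ⟨U, hUo, hUs, hUn, hUeq, hUu⟩ := hModEq n N M P Q Γ j0 s t x₀' x₀ ζ r W₁ W₂ D₁ D₂ Y₁ Y₂
    hs ht hD₁ hD₂ hD₁s hD₂s hpull₁ hpull₂ hc₁ hc₂ (O k) (φ k) (V k) (hk k).1 (x k) (hk k).2
    hk1 hk2 hk3 hk4
  have hEq : EqOnM W₁ W₂ (HB ζ r) :=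
    hRig n N κ α β j0 W₁ W₂ (HB ζ r) hn hHBopen hHBpos hHBpre hmod₁ hmod₂ U hUo hUs hUn hUeq
  have hL₁ : (P.loc x₀').Ok D₁ := by
    have := (hLoc n N M).2.1 P x₀'
    exact ⟨fun i j => (this.g_smooth i j).mono hD₁s, fun y hy => this.g_pos y (hD₁s hy),
      fun i => (this.B_smooth i).mono hD₁s, this.h_smooth.mono hD₁s,
      fun y hy => this.h_adj y (hD₁s hy), fun y hy => this.h_pos y (hD₁s hy),
      fun y hy => this.compat y (hD₁s hy)⟩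
  have hL₂ : (Q.loc x₀).Ok D₂ := by
    have := (hLoc n N M).2.1 Q x₀
    exact ⟨fun i j => (this.g_smooth i j).mono hD₂s, fun y hy => this.g_pos y (hD₂s hy),
      fun i => (this.B_smooth i).mono hD₂s, this.h_smooth.mono hD₂s,
      fun y hy => this.h_adj y (hD₂s hy), fun y hy => this.h_pos y (hD₂s hy),
      fun y hy => this.compat y (hD₂s hy)⟩
  have hsec : ∀ u ∈ PP P Q Γ, ∀ y ∈ HB ζ r,
      Ring.inverse (frm n x₀' (fun j => (s j).1) (Y₁ y)) (lu (𝓡∂ n) x₀' u.1 (Y₁ y)) =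
      Ring.inverse (frm n x₀ (fun j => (s j).2) (Y₂ y)) (lu (𝓡∂ n) x₀ u.2 (Y₂ y)) := by
    intro u hu
    obtain ⟨f, _, hf1, hf2⟩ := hu
    have a1 : Sol (P.loc x₀') D₁ (lu (𝓡∂ n) x₀' u.1) := by
      have := hHarm n N M P f _ hf1 x₀'
      exact ⟨this.1.mono hD₁s, fun y hy => this.2 y (hD₁s hy)⟩
    have a2 : Sol (Q.loc x₀) D₂ (lu (𝓡∂ n) x₀ u.2) := by
      have := hHarm n N M Q f _ hf2 x₀
      exact ⟨this.1.mono hD₂s, fun y hy => this.2 y (hD₂s hy)⟩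
    have b1 := cClosed_tr hBSol hD₁ hHBo hL₁ hmod₁.ok hpull₁ a1
    have b2 := cClosed_tr hBSol hD₂ hHBo hL₂ hmod₂.ok hpull₂ a2
    have b3 : Sol W₁.toLD (HB ζ r)
        (fun y => Ring.inverse (frm n x₀ (fun j => (s j).2) (Y₂ y)) (lu (𝓡∂ n) x₀ u.2 (Y₂ y))) :=
      cClosed_sol_congr hHBo hEq.g hEq.B (fun _ _ => rfl) b2
    have b4 := cClosed_sol_sub hHBo hmod₁.ok b1 b3
    have b5 := hLin n N W₁.toLD (HB ζ r) hHBopen inter_subset_right hmod₁.ok hHBpre _ b4 U hUo hUs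
      hUn (fun y hy => sub_eq_zero.2 (hUu u ⟨f, by assumption, hf1, hf2⟩ y hy))
    intro y hy
    exact sub_eq_zero.1 (b5 y hy)
  obtain ⟨O', φ', V', hM, hO'⟩ := hMatch n N M P Q Γ x₀' x₀ ζ r W₁.toLD W₂.toLD D₁ D₂ _ Y₁ _ Y₂ _ _
    hD₁ hD₂ hD₁s hD₂s hpull₁ hpull₂ hEq.g hEq.B hEq.h hsec
  refine ⟨O', φ', V', hM, ?_⟩
  have := hO' (xc n x₀ x₀) hz₂ (cClosed_pos hLoc hx₀)
  rwa [extChartAt_to_inv] at this

/-- Match near a point of `Γ ∩ G₁ ∩ G₂`. -/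
theorem wNear (hStart : CStart_statement.{u}) (hBM : BModel_statement)
    (hCERel : CERel_statement.{u}) (hDBd : DBd_statement) (hRig : BRigBd_statement)
    (hLin : LinBd_statement) (hBSol : BSol_statement) (hMatch : CMatch_statement.{u})
    (hHarm : CHarm_statement.{u}) (hUniq : CUniq_statement.{u}) (hLoc : CLoc_statement.{u})
    {n N : ℕ} [NeZero n] {M : Type u} [TopologicalSpace M]
    [ChartedSpace (EuclideanHalfSpace n) M] [IsManifold (𝓡∂ n) ∞ M]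
    [T2Space M] [CompactSpace M] [ConnectedSpace M] [MeasurableSpace M] [BorelSpace M]
    (P Q : One n N M) (Γ : Set M) (κ₁ κ₂ α β : ℝ) (hn : 3 ≤ n) (hN : 0 < N) (hΓ : RelBd n Γ)
    (hsame : SameD P Q Γ) {G₁ G₂ : Set M} (hG₁ : IsOpen G₁) (hG₂ : IsOpen G₂)
    (hE₁ : EYMw κ₁ α β P G₁) (hE₂ : EYMw κ₂ α β Q G₂) (hne : (Γ ∩ (G₁ ∩ G₂)).Nonempty) :
    κ₁ = κ₂ ∧ ∃ p ∈ Γ ∩ (G₁ ∩ G₂), ∃ (O : Set M) (φ : M → M) (V : M → EndF N),
      LMatch P Q Γ O φ V ∧ ∀ᶠ m in 𝓝 p, m ∈ Mi n M → m ∈ O := by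
  have hΓne : Γ.Nonempty := hne.mono inter_subset_left
  obtain ⟨j0, q, z, r₀, s, t, W₁, W₂, X₁, Y₁, X₂, Y₂, S₁, S₂, hr₀, hs, ht, ⟨hzt, hzΓ⟩, hBd⟩ :=
    wSetup hStart hBM hHarm hUniq hLoc P Q Γ κ₁ κ₂ α β (by omega) hN hΓ hsame hG₁ hG₂ hE₁ hE₂ hne
  obtain ⟨D₁, D₂, b1, b2⟩ := hBd r₀ hr₀ le_rfl
  have hr : 0 < r₀ / 2 := by positivity
  set r : ℝ := r₀ / 2 with hrdef
  have hrr : r < r₀ := by rw [hrdef]; linarith
  obtain ⟨D₁', D₂', c1, c2⟩ := hBd r hr hrr.le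
  obtain ⟨⟨C, hC⟩, hdat⟩ := hCERel n N M P Q Γ q z r₀ κ₁ κ₂ α β j0 W₁ W₂ D₁ D₂ X₁ Y₁ X₂ Y₂ S₁ S₂ s t
    b1 b2 hs ht hΓ hΓne hsame r hr hrr
  have hHB : HB z r ⊆ HB z r₀ := inter_subset_inter_left _ (Metric.ball_subset_ball hrr.le)
  have hbdne : ((𝓡∂ n).boundary M).Nonempty := by
    obtain ⟨O, -, hΓO⟩ := hΓ
    obtain ⟨m, hm⟩ := hΓne
    rw [hΓO] at hm
    exact ⟨m, hm.2⟩
  have hUP := hUniq n N M P hbdne
  have hUQ := hUniq n N M Q hbdne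
  -- linear combinations
  have hlin : ∀ (a b : ℂ) (u v : (M → Fib N) × (M → Fib N)), u ∈ PP P Q Γ → v ∈ PP P Q Γ →
      a • u + b • v ∈ PP P Q Γ := by
    rintro a b u v ⟨f, hf, hf1, hf2⟩ ⟨f', hf', hf1', hf2'⟩
    exact ⟨a • f + b • f', CNear_bdry_lin a b hf hf', hUP.2.1 f f' _ _ a b hf1 hf1',
      hUQ.2.1 f f' _ _ a b hf2 hf2'⟩
  have hcomb : ∀ (v : Fib N) (F : Finset (Fin N)), (∑ j ∈ F, v j • s j) ∈ PP P Q Γ := by
    intro v F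
    induction F using Finset.induction_on with
    | empty =>
      have := hlin 0 0 (s ⟨0, hN⟩) (s ⟨0, hN⟩) (hs _) (hs _)
      simpa using this
    | insert j F hj ih =>
      rw [Finset.sum_insert hj]
      have := hlin (v j) 1 (s j) _ (hs j) ih
      simpa using this
  have d1const : ∀ v : Fib N, ∀ y ∈ HB z r₀,
      Ring.inverse (S₁ (Y₁ y)) (lu (𝓡∂ n) q (∑ j, v j • s j).1 (Y₁ y)) = v := by
    intro v y hy
    have hx := b1.pull.diffeo.mapsY hy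
    have h1 := b1.frame _ hx v
    have h2 : lu (𝓡∂ n) q (∑ j, v j • s j).1 (Y₁ y) = S₁ (Y₁ y) v := by
      rw [h1]
      simp [lu, Prod.fst_sum, Finset.sum_apply]
    rw [h2]
    show (Ring.inverse (S₁ (Y₁ y)) * S₁ (Y₁ y)) v = v
    rw [Ring.inverse_mul_cancel _ (b1.pull.unit _ hx)]
    rfl
  have d2const : ∀ v : Fib N, ∀ y ∈ HB z r₀,
      Ring.inverse (S₂ (Y₂ y)) (lu (𝓡∂ n) q (∑ j, v j • s j).2 (Y₂ y)) = v := by
    intro v y hy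
    have hx := b2.pull.diffeo.mapsY hy
    have h1 := b2.frame _ hx v
    have h2 : lu (𝓡∂ n) q (∑ j, v j • s j).2 (Y₂ y) = S₂ (Y₂ y) v := by
      rw [h1]
      simp [lu, Prod.snd_sum, Finset.sum_apply]
    rw [h2]
    show (Ring.inverse (S₂ (Y₂ y)) * S₂ (Y₂ y)) v = v
    rw [Ring.inverse_mul_cancel _ (b2.pull.unit _ hx)]
    rfl
  have d1coord : ∀ a, ∀ y ∈ HB z r₀,
      Ring.inverse (S₁ (Y₁ y)) (lu (𝓡∂ n) q (t a).1 (Y₁ y)) = W₁.c a y := by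
    intro a y hy
    have hx := b1.pull.diffeo.mapsY hy
    rw [b1.coord _ hx a, b1.pull.diffeo.inv2 y hy]
    show (Ring.inverse (S₁ (Y₁ y)) * S₁ (Y₁ y)) _ = _
    rw [Ring.inverse_mul_cancel _ (b1.pull.unit _ hx)]
    rfl
  have d2coord : ∀ a, ∀ y ∈ HB z r₀,
      Ring.inverse (S₂ (Y₂ y)) (lu (𝓡∂ n) q (t a).2 (Y₂ y)) = W₂.c a y := by
    intro a y hy
    have hx := b2.pull.diffeo.mapsY hy
    rw [b2.coord _ hx a, b2.pull.diffeo.inv2 y hy]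
    show (Ring.inverse (S₂ (Y₂ y)) * S₂ (Y₂ y)) _ = _
    rw [Ring.inverse_mul_cancel _ (b2.pull.unit _ hx)]
    rfl
  have hR := CNear_relHB z r
  have hfluxv : ∀ x ∈ HB z r, x 0 = 0 → ∀ v : Fib N,
      flux W₁.toLD 0 (fun _ => v) x = flux W₂.toLD 0 (fun _ => v) x := by
    intro x hx hx0 v
    have h1 := (hdat _ (hcomb v Finset.univ) x hx hx0).2
    rw [CNear_flux_congr hR W₁.toLD (fun y hy => d1const v y (hHB hy)) 0 hx,
      CNear_flux_congr hR W₂.toLD (fun y hy => d2const v y (hHB hy)) 0 hx] at h1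
    exact h1
  have hc : ∀ x ∈ HB z r, x 0 = 0 → ∀ a, W₁.c a x = W₂.c a x := by
    intro x hx hx0 a
    have h1 := (hdat _ (ht a) x hx hx0).1
    have h2 := d1coord a x (hHB hx)
    have h3 := d2coord a x (hHB hx)
    rw [← h2, ← h3]
    exact h1
  have hfluxc : ∀ x ∈ HB z r, x 0 = 0 → ∀ a,
      flux W₁.toLD 0 (W₁.c a) x = flux W₂.toLD 0 (W₂.c a) x := by
    intro x hx hx0 a
    have h1 := (hdat _ (ht a) x hx hx0).2
    rw [CNear_flux_congr hR W₁.toLD (fun y hy => d1coord a y (hHB hy)) 0 hx,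
      CNear_flux_congr hR W₂.toLD (fun y hy => d2coord a y (hHB hy)) 0 hx] at h1
    exact h1
  have hh : ∀ x ∈ HB z r, x 0 = 0 → W₁.h x = 1 ∧ W₂.h x = 1 := by
    intro x hx hx0
    obtain ⟨h1, h2, h3, h4, -⟩ := c1.bd x hx hx0
    obtain ⟨k1, k2, k3, k4, -⟩ := c2.bd x hx hx0
    have e1 := c1.pull.h_eq x h1
    have e2 := c2.pull.h_eq x k1
    rw [h2, h4] at e1
    rw [k2, k4] at e2
    constructor
    · rw [← e1]
      show ContinuousLinearMap.adjoint (1 : EndF N) * (1 : EndF N) * 1 = 1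
      rw [mul_one, mul_one]
      exact star_one (EndF N)
    · rw [← e2]
      show ContinuousLinearMap.adjoint (1 : EndF N) * (1 : EndF N) * 1 = 1
      rw [mul_one, mul_one]
      exact star_one (EndF N)
  obtain ⟨hκ, hjet⟩ := hDBd n N κ₁ κ₂ α β j0 W₁ W₂ z r C hn hr b1.z0 c1.model c2.model hh hc hfluxv
    hfluxc hC
  refine ⟨hκ, ?_⟩
  subst hκ
  have hEq := hRig n N κ₁ α β j0 W₁ W₂ z r hn hr b1.z0 c1.model c2.model hjet
  have hlocP := hLoc n N M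
  -- solutions in model coordinates
  have hR0 := CNear_relHB z r₀
  have hsol1 : ∀ u ∈ PP P Q Γ, Sol W₁.toLD (HB z r)
      (fun y => Ring.inverse (S₁ (Y₁ y)) (lu (𝓡∂ n) q u.1 (Y₁ y))) := by
    intro u hu
    obtain ⟨f, hf, hf1, hf2⟩ := hu
    have h1 := hHarm n N M P f u.1 hf1 q
    have hsm : ContDiffOn ℝ ∞ (fun y => Ring.inverse (S₁ (Y₁ y)) (lu (𝓡∂ n) q u.1 (Y₁ y)))
        (HB z r) := by
      refine smooth_eval (smooth_ringInverse (c1.pull.smS.comp c1.pull.diffeo.smY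
        c1.pull.diffeo.mapsY) fun y hy => c1.pull.unit _ (c1.pull.diffeo.mapsY hy)) ?_
      exact (h1.1.mono c1.sub).comp c1.pull.diffeo.smY c1.pull.diffeo.mapsY
    refine hBSol n N (P.loc q) W₁.toLD D₁' (HB z r) X₁ Y₁ S₁ c1.rel hR
      (CNear_ok_mono (hlocP.2.1 P q) c1.sub) c1.model.ok c1.pull _ ?_ hsm
    refine CNear_Sol_congr c1.rel (c := lu (𝓡∂ n) q u.1) ?_ ⟨h1.1.mono c1.sub, fun x hx =>
      h1.2 x (c1.sub hx)⟩
    intro x hx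
    show lu (𝓡∂ n) q u.1 x =
      (S₁ x * Ring.inverse (S₁ (Y₁ (X₁ x)))) (lu (𝓡∂ n) q u.1 (Y₁ (X₁ x)))
    rw [c1.pull.diffeo.inv1 x hx, Ring.mul_inverse_cancel _ (c1.pull.unit x hx)]
    rfl
  have hsol2 : ∀ u ∈ PP P Q Γ, Sol W₂.toLD (HB z r)
      (fun y => Ring.inverse (S₂ (Y₂ y)) (lu (𝓡∂ n) q u.2 (Y₂ y))) := by
    intro u hu
    obtain ⟨f, hf, hf1, hf2⟩ := hu
    have h1 := hHarm n N M Q f u.2 hf2 q
    have hsm : ContDiffOn ℝ ∞ (fun y => Ring.inverse (S₂ (Y₂ y)) (lu (𝓡∂ n) q u.2 (Y₂ y)))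
        (HB z r) := by
      refine smooth_eval (smooth_ringInverse (c2.pull.smS.comp c2.pull.diffeo.smY
        c2.pull.diffeo.mapsY) fun y hy => c2.pull.unit _ (c2.pull.diffeo.mapsY hy)) ?_
      exact (h1.1.mono c2.sub).comp c2.pull.diffeo.smY c2.pull.diffeo.mapsY
    refine hBSol n N (Q.loc q) W₂.toLD D₂' (HB z r) X₂ Y₂ S₂ c2.rel hR
      (CNear_ok_mono (hlocP.2.1 Q q) c2.sub) c2.model.ok c2.pull _ ?_ hsm
    refine CNear_Sol_congr c2.rel (c := lu (𝓡∂ n) q u.2) ?_ ⟨h1.1.mono c2.sub, fun x hx =>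
      h1.2 x (c2.sub hx)⟩
    intro x hx
    show lu (𝓡∂ n) q u.2 x =
      (S₂ x * Ring.inverse (S₂ (Y₂ (X₂ x)))) (lu (𝓡∂ n) q u.2 (Y₂ (X₂ x)))
    rw [c2.pull.diffeo.inv1 x hx, Ring.mul_inverse_cancel _ (c2.pull.unit x hx)]
    rfl
  have hsolEq : ∀ u ∈ PP P Q Γ, ∀ x ∈ HB z r,
      Ring.inverse (S₁ (Y₁ x)) (lu (𝓡∂ n) q u.1 (Y₁ x)) =
        Ring.inverse (S₂ (Y₂ x)) (lu (𝓡∂ n) q u.2 (Y₂ x)) := by
    intro u hu x hx
    have k1 := hsol1 u hu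
    have k2 := hsol2 u hu
    have k3 : Sol W₁.toLD (HB z r)
        (fun y => Ring.inverse (S₁ (Y₁ y)) (lu (𝓡∂ n) q u.1 (Y₁ y)) -
          Ring.inverse (S₂ (Y₂ y)) (lu (𝓡∂ n) q u.2 (Y₂ y))) := by
      refine ⟨k1.1.sub k2.1, fun y hy => ?_⟩
      rw [CNear_Lop_sub hR c1.model.ok k1.1 k2.1 hy, k1.2 y hy,
        CNear_Lop_data hR hEq.g hEq.B _ hy, k2.2 y hy, sub_zero]
    have k4 := hLin n N W₁.toLD z r hr b1.z0 c1.model.ok _ k3 (fun y hy hy0 => by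
      obtain ⟨e1, e2⟩ := hdat u hu y hy hy0
      refine ⟨sub_eq_zero.2 e1, ?_⟩
      rw [CNear_flux_sub hR W₁.toLD k1.1 k2.1 0 hy, e2, CNear_flux_data hEq.g hEq.B _ 0 hy,
        sub_self]) x hx
    exact sub_eq_zero.1 k4
  obtain ⟨O, φ, V, hO, hO'⟩ := hMatch n N M P Q Γ q q z r W₁.toLD W₂.toLD D₁' D₂' X₁ Y₁ X₂ Y₂ S₁ S₂
    c1.rel c2.rel c1.sub c2.sub c1.pull c2.pull hEq.g hEq.B hEq.h hsolEq
  refine ⟨_, hzΓ, O, φ, V, hO, ?_⟩
  have hz : z ∈ HB z r := ⟨Metric.mem_ball_self hr, by show 0 ≤ z 0; rw [b1.z0]⟩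
  have hzD := (c2.bd z hz b1.z0).1
  obtain ⟨O₂, hO₂, hD₂O⟩ := c2.rel
  have hps : (xc n q).symm z ∈ (xc n q).source := (xc n q).map_target hzt
  have hpz : xc n q ((xc n q).symm z) = z := (xc n q).right_inv hzt
  have e1 : ∀ᶠ m in 𝓝 ((xc n q).symm z), m ∈ (xc n q).source :=
    (isOpen_extChartAt_source q).mem_nhds hps
  have e2 : ∀ᶠ m in 𝓝 ((xc n q).symm z), xc n q m ∈ O₂ := by
    have h1 : ContinuousAt (xc n q) ((xc n q).symm z) :=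
      (continuousOn_extChartAt q).continuousAt ((isOpen_extChartAt_source q).mem_nhds hps)
    have h2 : O₂ ∈ 𝓝 (xc n q ((xc n q).symm z)) := by
      rw [hpz]
      rw [hD₂O] at hzD
      exact hO₂.mem_nhds hzD.1
    exact h1 h2
  filter_upwards [e1, e2] with m hm1 hm2 hmi
  have hmH : xc n q m ∈ Hs n := (hlocP.1 q).subset ((xc n q).map_source hm1)
  have hmD : xc n q m ∈ D₂' := by
    rw [hD₂O]
    exact ⟨hm2, hmH⟩
  have hm0 : 0 < xc n q m 0 := by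
    refine lt_of_le_of_ne hmH fun h => ?_
    have hb : m ∈ (𝓡∂ n).boundary M := (hlocP.2.2.1 q m hm1).2 h.symm
    exact Set.disjoint_left.1 (ModelWithCorners.disjoint_interior_boundary (I := 𝓡∂ n) (M := M))
      hmi hb
  have := hO' (xc n q m) hmD hm0
  rwa [(xc n q).left_inv hm1] at this

end Vale.Agent.P088.EYM
end
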