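import Vale.Agent.P088.H332.Loc1

/-!
# P088, exterior determination, part 2: the match on `W`, extension to the boundary
-/

open Bundle Manifold MeasureTheory Set Filter Topology
open scoped ContDiff

noncomputable section

set_option linter.all false

namespace Vale.Agent.P088.EYM

universe u

/-- The interior part of a connected open set is connected. -/
theorem wConn (hloc : CLoc_statement.{u}) (hconn : CConn_statement.{u}) {n : ℕ} [NeZero n]
    {M : Type u} [TopologicalSpace M]
    [ChartedSpace (EuclideanHalfSpace n) M] [IsManifold (𝓡∂ n) ∞ M] [ConnectedSpace M]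
    {W : Set M} (hW : IsOpen W) (hWc : IsPreconnected W) : IsPreconnected (W ∩ Mi n M) := by
  letI : MeasurableSpace M := borel M
  obtain ⟨h1, -, h3, -⟩ := hloc n 0 M
  obtain ⟨-, -, hdense⟩ := hconn n M
  have hmem : ∀ p x : M, x ∈ (xc n p).source → (x ∈ Mi n M ↔ 0 < xc n p x 0) := by
    intro p x hx
    have hb := h3 p x hx
    obtain ⟨O, hO, hOt⟩ := h1 p
    have ht : xc n p x ∈ tg n p := (xc n p).map_source hx
    rw [hOt] at ht
    have h0 : 0 ≤ xc n p x 0 := ht.2
    rw [← not_iff_not, not_lt, ← mem_compl_iff, ModelWithCorners.compl_interior, hb]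
    exact ⟨fun h => h.le, fun h => le_antisymm h h0⟩
  haveI : PreconnectedSpace W := Subtype.preconnectedSpace hWc
  have key : IsPreconnected ((Subtype.val : W → M) ⁻¹' Mi n M) := by
    refine cConn_top (fun x => ?_) fun x => ?_
    · rw [mem_closure_iff]
      intro o ho hxo
      obtain ⟨o', ho', rfl⟩ := isOpen_induced_iff.1 ho
      obtain ⟨y, hy1, hy2⟩ := mem_closure_iff.1 (hdense x.1) (o' ∩ W) (ho'.inter hW) ⟨hxo, x.2⟩
      exact ⟨⟨y, hy1.2⟩, hy1.1, hy2⟩
    · obtain ⟨x, hxW⟩ := x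
      set z := xc n x x with hz
      have hzt : z ∈ tgW n W x := ⟨mem_extChartAt_target x, by
        rw [mem_preimage, hz, extChartAt_to_inv]
        exact hxW⟩
      obtain ⟨O, hO, hOt⟩ := tgW_rel h1 hW x
      have hzO : z ∈ O := by
        rw [hOt] at hzt
        exact hzt.1
      obtain ⟨r, hr, hrO⟩ := Metric.isOpen_iff.1 hO z hzO
      have hsub : Metric.ball z r ∩ {y : E n | 0 < y 0} ⊆ tgW n W x := by
        rintro y ⟨hy1, hy2⟩
        rw [hOt]
        have h7 : (0 : ℝ) < y 0 := hy2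
        exact ⟨hrO hy1, h7.le⟩
      refine ⟨(Subtype.val : W → M) ⁻¹' ((xc n x).source ∩ xc n x ⁻¹' Metric.ball z r),
        ((continuousOn_extChartAt x).isOpen_inter_preimage (isOpen_extChartAt_source x)
          Metric.isOpen_ball).preimage continuous_subtype_val,
        ⟨mem_extChartAt_source x, Metric.mem_ball_self hr⟩, ?_⟩
      have himg : (Subtype.val : W → M) '' ((Subtype.val : W → M) ⁻¹' ((xc n x).source ∩
          xc n x ⁻¹' Metric.ball z r) ∩ (Subtype.val : W → M) ⁻¹' Mi n M) =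
          (xc n x).symm '' (Metric.ball z r ∩ {y : E n | 0 < y 0}) := by
        ext m
        constructor
        · rintro ⟨m', ⟨⟨hm1, hm2⟩, hm3⟩, rfl⟩
          exact ⟨xc n x m'.1, ⟨hm2, (hmem x m'.1 hm1).1 hm3⟩, (xc n x).left_inv hm1⟩
        · rintro ⟨y, hy, rfl⟩
          have h8 := (xc n x).map_target (hsub hy).1
          refine ⟨⟨(xc n x).symm y, (hsub hy).2⟩, ⟨⟨h8, ?_⟩, ?_⟩, rfl⟩
          · change xc n x ((xc n x).symm y) ∈ Metric.ball z r
            rw [(xc n x).right_inv (hsub hy).1]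
            exact hy.1
          · change (xc n x).symm y ∈ Mi n M
            rw [hmem x _ h8, (xc n x).right_inv (hsub hy).1]
            exact hy.2
      rw [← Topology.IsInducing.subtypeVal.isPreconnected_image, himg]
      refine IsPreconnected.image ?_ _
        ((continuousOn_extChartAt_symm x).mono (hsub.trans (tgW_sub W x)))
      apply Convex.isPreconnected
      refine (convex_ball z r).inter ?_
      intro a ha b hb s t hs ht hst
      change 0 < (s • a + t • b) 0
      have ha' : (0 : ℝ) < a 0 := ha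
      have hb' : (0 : ℝ) < b 0 := hb
      simp only [PiLp.add_apply, PiLp.smul_apply, smul_eq_mul]
      rcases hs.eq_or_lt with h | h
      · have : t = 1 := by linarith only [hst, h]
        rw [← h, this]
        simpa only [zero_mul, one_mul, zero_add, gt_iff_lt] using hb'
      · have h5 := mul_pos h ha'
        have h6 := mul_nonneg ht hb'.le
        linarith only [h5, h6]
  have h10 := key.image (Subtype.val : W → M) continuous_subtype_val.continuousOn
  rwa [Subtype.image_preimage_coe] at h10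

section Glue

variable {n N : ℕ} [NeZero n] {M : Type u} [TopologicalSpace M]
  [ChartedSpace (EuclideanHalfSpace n) M] [IsManifold (𝓡∂ n) ∞ M] [T2Space M] [CompactSpace M]
  [ConnectedSpace M] [MeasurableSpace M] [BorelSpace M]

/-- Gluing of the local matches on the set of good points. -/
theorem wGlue (hR : CRunge_statement.{u}) (hC : CConn_statement.{u}) {P Q : One n N M}
    {Γ : Set M} (hn : 2 ≤ n) (hN : 0 < N) (hΓ : RelBd n Γ) (hΓn : Γ.Nonempty) (hP : P.HasSol Γ)
    (hQ : Q.HasSol Γ) :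
    ∃ (Φ : M → M) (V : M → EndF N), ∀ x ∈ Gd P Q Γ, ∃ O, x ∈ O ∧ LMatch P Q Γ O Φ V := by
  classical
  have hG' : ∀ x : M, ∃ (O : Set M) (φ : M → M) (V : M → EndF N), x ∈ Gd P Q Γ →
      (LMatch P Q Γ O φ V ∧ x ∈ O) := by
    intro x
    by_cases hx : x ∈ Gd P Q Γ
    · obtain ⟨O, φ, V, h1⟩ := hx
      exact ⟨O, φ, V, fun _ => h1⟩
    · exact ⟨∅, id, fun _ => 1, fun h => absurd h hx⟩
  choose O φ V hOV using hG'
  refine ⟨fun x => φ x x, fun x => V x x, fun x hx => ⟨O x, (hOV x hx).2, ?_⟩⟩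
  have hm := (hOV x hx).1
  have key : ∀ y ∈ O x, φ y y = φ x y ∧ V y y = V x y := by
    intro y hy
    have hyG : y ∈ Gd P Q Γ := ⟨_, _, _, hm, hy⟩
    have hmy := (hOV y hyG).1
    have hyy := (hOV y hyG).2
    refine cGlobal_uniq hR hC hn hN hΓ hΓn hP hQ (hmy.maps hyy) (hm.maps hy) (hmy.unit y hyy) ?_
    intro u hu
    rw [← hmy.sol u hu y hyy, ← hm.sol u hu y hy]
  exact cGlobal_congr hm (fun y hy => (key y hy).1) (fun y hy => (key y hy).2)

/-- A glued match is injective. -/
theorem wInj (hR : CRunge_statement.{u}) (hC : CConn_statement.{u}) {P Q : One n N M}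
    {Γ : Set M} (hn : 2 ≤ n) (hN : 0 < N) (hΓ : RelBd n Γ) (hΓn : Γ.Nonempty) (hP : P.HasSol Γ)
    (hQ : Q.HasSol Γ) {Φ : M → M} {V : M → EndF N} {x y : M}
    (hx : ∃ O, x ∈ O ∧ LMatch P Q Γ O Φ V) (hy : ∃ O, y ∈ O ∧ LMatch P Q Γ O Φ V)
    (h : Φ x = Φ y) : x = y := by
  obtain ⟨O, hxO, hm⟩ := hx
  obtain ⟨O', hyO, hm'⟩ := hy
  have h1 : ∀ {W : EndF N}, W ∈ unitary (EndF N) → star W * W = 1 := fun hW =>
    (Unitary.mem_iff.1 hW).1
  refine (cGlobal_uniq hR hC (P := Q) (Q := P) hn hN hΓ hΓn hQ hP (hm.sub hxO) (hm'.sub hyO)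
    (V := star (V x)) (V' := star (V y)) (Unitary.star_mem (hm.unit x hxO)) ?_).1
  intro u hu
  have e1 := hm.sol _ (cGlobal_swap hu) x hxO
  have e2 := hm'.sol _ (cGlobal_swap hu) y hyO
  change u.1 x = V x (u.2 (Φ x)) at e1
  change u.1 y = V y (u.2 (Φ y)) at e2
  rw [e1, e2, ← h]
  have e3 : (star (V x)) (V x (u.2 (Φ x))) = (star (V x) * V x) (u.2 (Φ x)) := rfl
  have e4 : (star (V y)) (V y (u.2 (Φ x))) = (star (V y) * V y) (u.2 (Φ x)) := rfl
  rw [e3, e4, h1 (hm.unit x hxO), h1 (hm'.unit y hyO)]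

end Glue

end Vale.Agent.P088.EYM
end
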